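import Crest.Agent.N337.I.Geom
import Crest.Agent.N337.G1.Short
import Crest.Agent.N337.W.TP2

/-!
# Row 337 (helper4): the model side of every quenched Green bound

`Md` = word, pinned environment; `Nu` = numbers; `St` = a child model `(ξ, O)` with good junk sets.
`St.far`, `St.lag`, `St.short` = G1d, G1t, G1s for `WN.Gc`.
-/

set_option autoImplicit false
set_option linter.unusedSectionVars false

namespace Crest.Agent.N337.Gl

open Finset Crest.Agent.N337.Free Crest.Agent.N337.Rep G1 I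
open Crest.Agent.N337.Arc (Fld)

variable {L n T : ℕ} [NeZero L] [NeZero T]

/-- the numbers of the word. -/
structure Wd (T : ℕ) where
  p0 : Fin T → ℝ
  b0 : Fin T → ℝ
  E0 : ℕ
  w : ℕ
  B : ℕ
  q : ℝ
  κ : ℝ
  Y : ℝ
  Bd : Finset ℕ

/-- the Trotter error. -/
noncomputable def Wd.er (W : Wd T) (L n : ℕ) : ℝ := err W.q W.Y L n W.B

/-- the word has a clock. -/
structure Wd.Ok (W : Wd T) (ex ey : Fin T → Tor 3 L × Fin n) (F : Lf) : Prop where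
  nn : ∀ s, tdist (ex s).1 (ey s).1 ≤ 1
  clock : Clock ex ey W.p0 W.b0 W.E0 W.w W.B W.q W.κ W.Bd
  pers : Pers ex ey W.p0 W.b0 W.E0 W.w W.κ
  hD : F.D = W.w * W.E0
  hY : 0 ≤ W.Y ∧ W.Y < 1
  h0 : W.b0 0 ≤ W.Y

/-- the coins `p` are those of the word with the environment `E` pinned. -/
structure Md (W : Wd T) (ex ey : Fin T → Tor 3 L × Fin n) (p : Fin T → ℝ) (E : Ev L n T) :
    Prop where
  hp : ∀ s, 0 ≤ p s ∧ p s ≤ 1
  free : ∀ s, ¬ Gas.tch ex ey E.1 s → p s = W.p0 s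
  rp : Rp ex ey p E.1 E.2

/-- numerical conditions: rung `t` of the base cells, `x0 / 2` open ends. -/
structure Nu (W : Wd T) (L : ℕ) (F : Lf) (P : Scales) (t x0 j : ℕ) : Prop where
  ok : P.Ok L
  hl : 1 ≤ F.l
  hm : 2 * t * F.n1 ≤ P.a 0
  hj : P.a 0 + 2 * (2 * t * F.j1 + x0) ≤ j
  hr : 8 * P.η 0 ≤ F.r0
  hA : 11 * P.ρ 0 + 6 ≤ F.A ∧ F.A ≤ P.η 0
  ht : 2 * t * F.l1 < F.l
  h1 : (F.l + 1) * (j * (2 * F.A + 1)) + F.A < P.η 0
  h2 : (F.l + 1) * (j * (2 * F.A + 1)) + F.A ≤ F.r3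
  fine : 2 * (W.Bd.card + L ^ 3 * j + 1) ≤ W.w

/-- the top level: zero mode of the torus, or all alive sites in a ball. -/
def Tp (W : Wd T) (Z : Finset (Tor 3 L)) (vol : ℕ) (μ : ℝ) : Prop :=
  (1 ≤ vol ∧ 4 / (1 - W.Y) / vol ≤ μ) ∨
    (0 ≤ μ ∧ ∃ x r, (∀ z ∉ Z, tdist x z ≤ r) ∧ 4 * (2 * r + 1) ^ 3 ≤ vol)

/-- **a child model**: `O ⊆ C` pinned with the coins `ξ`, junk sets `U` for `E ⊔ evp ξ C`. -/
structure St (W : Wd T) (ex ey : Fin T → Tor 3 L × Fin n) (F : Lf) (P : Scales) (t x0 j : ℕ)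
    (p : Fin T → ℝ) (b : V L n T → ℝ) (E : Ev L n T) (Z : Finset (Tor 3 L)) (ξ : Fin T → Bool)
    (O C : Finset (V L n T)) (U : ℕ → Finset (Tor 3 L)) : Prop where
  wd : W.Ok ex ey F
  md : Md W ex ey p E
  nu : Nu W L F P t x0 j
  hb : Fld b
  le : ∀ v, b v ≤ bE W.b0 Z E.1 v
  sub : O ⊆ C
  ends : 2 * Arc.ends ex ey ξ O ≤ x0
  cov : ∀ m, 1 ≤ m → m < P.mt → CovIn P U m
  good : ∀ c ∉ U 1, G0 F t (E ⊔ evp ex ey ξ C) Z c

variable {W : Wd T} {ex ey : Fin T → Tor 3 L × Fin n} {F : Lf} {P : Scales} {t x0 j : ℕ}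
  {p : Fin T → ℝ} {b : V L n T → ℝ} {E : Ev L n T} {Z : Finset (Tor 3 L)} {ξ : Fin T → Bool}
  {O C : Finset (V L n T)} {U U' : ℕ → Finset (Tor 3 L)}

theorem Wd.Ok.hT (h : W.Ok ex ey F) : T = W.B * F.D := by rw [h.hD, ← mul_assoc]; exact h.clock.hT

theorem Md.child (h : Md W ex ey p E) (O : Finset (V L n T)) (ξ : Fin T → Bool) :
    Md W ex ey (Arc.pin p (Arc.tch ex ey O) ξ)
      (E.1 ∪ O, E.2 ∪ acp ex ey ξ O ∪ opn ex ey ξ O) where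
  hp := Arc.pin_mem h.hp _ ξ
  free s hs := by
    rw [tch_union', not_or] at hs
    rw [Arc.pin, if_neg (fun h' => hs.2 ((Arc.mem_tch ex ey).1 h')), h.free s hs.1]
  rp := h.rp.child O ξ

theorem Top.mono {f : V L n T → ℝ} {vol : ℕ} {μ μ' : ℝ} (h : Top f vol μ) (h' : μ ≤ μ') :
    Top f vol μ' := fun lam hl => h lam (h'.trans_lt hl)

/-- larger junk sets. -/
theorem St.junk (h : St W ex ey F P t x0 j p b E Z ξ O C U) (h1 : U 1 ⊆ U' 1)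
    (hc : ∀ m, 1 ≤ m → m < P.mt → CovIn P U' m) : St W ex ey F P t x0 j p b E Z ξ O C U' :=
  { h with cov := hc, good := fun c hc => h.good c fun h' => hc (h1 h') }

/-- the hypotheses of G1. -/
theorem St.g1 (h : St W ex ey F P t x0 j p b E Z ξ O C U) (u : V L n T) :
    ∃ (p' : Fin T → ℝ) (b' g : V L n T → ℝ), Grn ex ey p' b' u W.Y g ∧
      Data ex ey p' W.p0 b' W.b0 (vis Z (E.1 ∪ O)) Z W.E0 W.w W.B W.q W.κ W.Bd P U j F.A ∧
      Data3 ex ey W.p0 W.b0 (vis Z (E.1 ∪ O)) W.E0 W.w W.κ P U j F.A F.l F.r3 ∧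
      (∀ vol μ, Tp W Z vol μ → 0 ≤ μ ∧ Top (fun v => b' v * g v) vol μ) ∧
      ∀ v, WN.Gc ex ey p b O ξ v u ≤ g v := by
  have M := h.md.child O ξ
  have hb0 := h.wd.pers.hb0
  have hm := bE_mem (Z := Z) (R := E.1 ∪ O) fun s => (hb0 s).1
  have h0 : ∀ x, bE W.b0 Z (E.1 ∪ O) (0, x) ≤ W.Y := fun x => (hm _).2.trans h.wd.h0
  have hF : Fld (bE W.b0 Z (E.1 ∪ O)) :=
    ⟨fun v => ⟨(hm v).1, (hm v).2.trans (hb0 _).2⟩, fun x => (h0 x).trans_lt h.wd.hY.2⟩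
  have G := WN.grn ex ey M.hp hF h.wd.hY h0 u
  have hR : E.1 ∪ O ⊆ (E ⊔ evp ex ey ξ C).1 := union_subset_union_right h.sub
  have hX : E.2 ∪ acp ex ey ξ O ∪ opn ex ey ξ O ⊆ (E ⊔ evp ex ey ξ C).2 ∪ opn ex ey ξ O :=
    union_subset_union_left (union_subset_union_right (evp_mono (ξ := ξ) h.sub).2)
  have en := env_vis (Z := Z) h.wd.nn M.free W.b0
  refine ⟨_, _, _, G, ⟨en, h.wd.clock, ?_, h.nu.fine⟩,
    data3_of h.wd.hD h.wd.pers h.good h.nu.ht hR h.nu.h1 h.nu.h2, fun vol μ hT => ?_, fun v => ?_⟩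
  · rw [← h.wd.hD]
    exact geom_of h.nu.ok h.cov h.good h.wd.hT h.nu.hl M.rp hR hX (card_opn.trans h.ends) h.nu.hm
      h.nu.hj h.nu.hr h.nu.hA
  · rcases hT with ⟨h1, h2⟩ | ⟨h1, x, r, h2, h3⟩
    · have := h.wd.hY.2
      exact ⟨le_trans (div_nonneg (div_nonneg (by norm_num) (by linarith)) (Nat.cast_nonneg _)) h2,
        Top.mono (top_mass G h1) h2⟩
    · have h4 : ∀ v : V L n T, r < tdist x v.2.1 → bE W.b0 Z (E.1 ∪ O) v = 0 :=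
        fun v hv => en.bZ v (by_contra fun h' => absurd (h2 _ h') (not_le.2 hv))
      exact ⟨h1, Top.mono (top_supp (g := fun v => WN.Gi ex ey (Arc.pin p (Arc.tch ex ey O) ξ)
        (bE W.b0 Z (E.1 ∪ O)) v u) h4 h3) h1⟩
  · rw [WN.Gc]
    refine WN.Gi_mono ex ey M.hp (h.hb.kill O) hF (fun w => ?_) v u
    unfold Arc.kill
    split_ifs with hw
    · exact (hm w).1
    · refine (h.le w).trans (le_of_eq ?_)
      exact if_congr (by rw [mem_vis, mem_vis, mem_union, or_iff_left hw]) rfl rfl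

variable {x : Tor 3 L} {v u : V L n T} {d nmax vol m1 : ℕ} {c c' μ : ℝ}

/-- **far pairs** (G1d). -/
theorem St.far (h : St W ex ey F P t x0 j p b E Z ξ O C U) (hm1 : 1 ≤ m1) (hm1' : m1 ≤ P.mt)
    (hN : Near P U x m1 d) (C0 : 0 ≤ c) (hcap : CapH P U x d F.A nmax vol c)
    (hn : d / (4 * P.η (m1 - 1)) ≤ nmax) (top : Tp W Z vol μ) (hx : x = u.2.1 ∨ x = v.2.1)
    (hd : d ≤ tdist u.2.1 v.2.1) (hdη : 4 * P.η (m1 - 1) ≤ d) :
    (WN.Gc ex ey p b O ξ v u - if v = u then 1 else 0) ≤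
      Cg W.κ * (μ + c * P.η (m1 - 1) / d + W.er L n) := by
  obtain ⟨p', b', g, G, D, D3, tp, le⟩ := h.g1 u
  exact (sub_le_sub_right (le v) _).trans
    (G1d G D D3 hm1 hm1' hN C0 hcap hn (tp _ _ top).1 (tp _ _ top).2 hx hd hdη)

/-- **long lags** (G1t). -/
theorem St.lag (h : St W ex ey F P t x0 j p b E Z ξ O C U) (hN : Near P U x 1 (d + P.η 0))
    (C0 : 0 ≤ c) (hcap : CapH P U x d F.A nmax vol c) (hn : d / (4 * P.η 0) ≤ nmax) (C1 : 0 ≤ c')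
    (hcap' : CapH P U x (d + P.η 0) F.A 1 vol c') (top : Tp W Z vol μ)
    (hx : x = u.2.1 ∨ x = v.2.1) (hdη : 4 * P.η 0 ≤ d) {Nb : ℕ} (hNb : 1 ≤ Nb)
    (hlag : Nb * (F.l + 2) * F.D ≤ lag u.1 v.1) :
    (WN.Gc ex ey p b O ξ v u - if v = u then 1 else 0) ≤
      Cg W.κ * (μ + (c' / Nb + c * P.η 0 / d) + W.er L n) := by
  obtain ⟨p', b', g, G, D, D3, tp, le⟩ := h.g1 u
  exact (sub_le_sub_right (le v) _).trans (G1t G D D3 hN C0 hcap hn C1 hcap' (tp _ _ top).1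
    (tp _ _ top).2 hx hdη hNb (h.wd.hD ▸ hlag))

/-- **short lags** (G1s): `S` = windows inside the lag without a cluster within `r` of `y`. -/
theorem St.short (h : St W ex ey F P t x0 j p b E Z ξ O C U) (hN : Near P U x 1 (d + F.A))
    (C0 : 0 ≤ c) (hcap : CapH P U x d F.A nmax vol c) (C1 : 0 ≤ c')
    (hcap' : CapH P U x d F.A 1 vol c') {M τ : ℕ} (hM : 1 ≤ M) (hn : M ≤ nmax) (top : Tp W Z vol μ)
    (hx : x = u.2.1 ∨ x = v.2.1) (hd : 2 * (M + τ) * ((j + 1) * (2 * F.A + 1)) ≤ d)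
    (hτ : G1.lag u.1 v.1 ≤ τ * F.D) (S : Finset ℕ) (hS : S.Nonempty) {y : Tor 3 L} {r : ℕ}
    (hr : tdist y x + d ≤ r) (hS' : ∀ i ∈ S, ¬ Cl F r (vis Z (E.1 ∪ C)) y i ∧
      u.1.val ≤ i * F.D ∧ (i + 1) * F.D ≤ u.1.val + G1.lag u.1 v.1) :
    (WN.Gc ex ey p b O ξ v u - if v = u then 1 else 0) ≤
      Cg W.κ * (μ + (c' / S.card + c / M) + W.er L n) := by
  obtain ⟨p', b', g, G, D, D3, tp, le⟩ := h.g1 u
  have h1 := h.nu.h1
  have h2 : j * (2 * F.A + 1) ≤ (F.l + 1) * (j * (2 * F.A + 1)) :=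
    Nat.le_mul_of_pos_left _ (by omega)
  refine (sub_le_sub_right (le v) _).trans (G1s G D h.wd.pers hN C0 hcap C1 hcap' hM hn
    (tp _ _ top).1 (tp _ _ top).2 hx (by omega) hd (h.wd.hD ▸ hτ) S hS fun i hi => ?_)
  rw [← h.wd.hD]
  exact ⟨noCl (hS' i hi).1 (vis_mono (union_subset_union_right h.sub) Subset.rfl) hr, (hS' i hi).2⟩

end Crest.Agent.N337.Gl
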