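import Crest.Agent.N337.Gl.Tb
import Crest.Agent.N337.E.MDefs

/-!
# Row 337 (helper92): the Green input `En.HT` of the engine on the `Gl` interface
-/

set_option autoImplicit false
set_option linter.unusedSectionVars false

namespace Crest.Agent.N337.Gl

open Finset Crest.MathPhysics.SpinModel Crest.Agent.N337.Free Crest.Agent.N337.Rep G1 I Rg Tr
open Crest.Agent.N337.Arc (Fld)

variable {L n T : ℕ} [NeZero L] [NeZero T] {α κ : Type} [SemilatticeSup α] [Preorder κ]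
  {S : Sys (Tor 3 L) α κ} {G : Eg} {P : Scales} {k k' th : ℕ → ℕ} {W : Wd T}
  {ex ey : Fin T → Tor 3 L × Fin n} {F : Lf} {t x0 j : ℕ} {p : Fin T → ℝ} {b : V L n T → ℝ}
  {E : Ev L n T} {Z : Finset (Tor 3 L)} {μ : ℝ}

/-- a clean form of the price of a distance. -/
theorem gF_le (A lo d : ℕ) : gF S G P k k' A lo d ≤
    (16 * A + 2 * 10 ^ 9 * P.K lo * (1 + (Nat.log 2 d : ℝ)) ^ 2) * P.η lo / d +
      10 ^ 9 * Tb.tau S G P k k' lo G.mt ^ 2 := by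
  rcases Nat.eq_zero_or_pos d with rfl | hd
  · simp only [gF, Nat.cast_zero, div_zero, zero_add]; positivity
  have h0 := zero_le_one.trans (one_le_K P lo)
  have h1 : (0 : ℝ) < d := by exact_mod_cast hd
  have h2 : ((d / (4 * P.η lo) : ℕ) : ℝ) * (4 * P.η lo) ≤ d := by
    exact_mod_cast Nat.div_mul_le_self d (4 * P.η lo)
  have h3 : (1 + (Nat.log 2 (d / (4 * P.η lo)) : ℝ)) ^ 2 ≤ (1 + (Nat.log 2 d : ℝ)) ^ 2 := by
    have : (Nat.log 2 (d / (4 * P.η lo)) : ℝ) ≤ Nat.log 2 d := by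
      exact_mod_cast Nat.log_mono_right (Nat.div_le_self _ _)
    gcongr
  have h4 := mul_le_mul_of_nonneg_right (mul_le_mul_of_nonneg_left h3 h0) (Nat.cast_nonneg (P.η lo))
  have h5 := mul_le_mul_of_nonneg_right h2 (sq_nonneg (Tb.tau S G P k k' lo G.mt))
  have h6 := mul_nonneg h1.le (sq_nonneg (Tb.tau S G P k k' lo G.mt))
  rw [gF, cT, div_add' _ _ _ h1.ne', div_le_div_iff_of_pos_right h1]
  nlinarith

/-- the numbers of `En.HT` (`e` bounds the Trotter error). -/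
structure NH (S : Sys (Tor 3 L) α κ) (G : Eg) (P : Scales) (k k' : ℕ → ℕ) (Pz : En.Pz) (F : Lf)
    (B : ℕ) (c μ e : ℝ) (d0 Nb : ℕ) : Prop where
  far : ∀ l ≤ G.mt, 4 * P.η l ≤ Pz.dd l ∧ 2 * (Pz.dd l + F.A) ≤ 2 ^ k l ∧
    Cg c * (μ + gF S G P k k' F.A l (Pz.dd l) + e) ≤ Pz.γ l
  hd : 4 * P.η 0 ≤ d0 ∧ 2 * (d0 + P.η 0 + F.A) ≤ 2 ^ k 0
  hN : 1 ≤ Nb ∧ Nb * (F.l + 2) ≤ B
  lag : Cg c * (μ + (cT S G P k k' F.A 0 1 / Nb + gF S G P k k' F.A 0 d0) + e) ≤ Pz.γ0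

/-- **the Green input of the engine.** -/
theorem ht (hW : W.Ok ex ey F) (M : Md W ex ey p E) (N : Nu W L F P t x0 j) (h2 : 2 ≤ x0)
    (hb : Fld b) (le : ∀ v, b v ≤ bE W.b0 Z E.1 v) (top : Tp W Z (vT G k) μ) {Pz : En.Pz} {e : ℝ}
    {d0 Nb : ℕ} (he : W.er L n ≤ e) (H : NH S G P k k' Pz F W.B W.κ μ e d0 Nb)
    {J : Finset (Gas.Lp T (Tor 3 L × Fin n)) → ℕ → Tor 3 L → Prop}
    (hJ : ∀ ξ C, Pw p ξ ≠ 0 → C ⊆ Gas.L ex ey ξ → ∃ U, Lnk S G P k k' th U (J C) ∧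
      (∀ m, 1 ≤ m → m < P.mt → CovIn P U m) ∧ ∀ c ∉ U 1, G0 F t (E ⊔ I.ev ex ey C) Z c) :
    En.HT ex ey S G Pz p b J := by
  have hC := Cg_nonneg hW.clock.hκ
  refine ⟨fun ξ C O l x v u a1 a2 a3 a4 a5 a6 a7 _ _ a8 => ?_, fun ξ C x v u a1 a2 a3 a4 a5 => ?_⟩
  · obtain ⟨U, K, c1, c2⟩ := hJ ξ C a1 a2
    obtain ⟨d1, d2, d3⟩ := H.far l a5
    have := St.farT (v := v) (u := u) (ξ := ξ) (O := O) ⟨hW, M, N, hb, le, a3, by omega, c1,
      I.ev_eq a2 ▸ c2⟩ K a6 a5 d2 d1 top (.inr a7.symm) (by rwa [tdist_comm])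
    rw [if_neg, sub_zero] at this
    · exact this.trans (le_trans (by gcongr) d3)
    · rintro rfl
      have b1 := N.ok.ρη l (by have := K.nu.mt; omega)
      have b2 := one_le_tS
      rw [tdist_self] at a8
      unfold Scales.ρ at b1
      omega
  · obtain ⟨U, K, c1, c2⟩ := hJ ξ C a1 a2
    have e0 : Arc.ends ex ey ξ (Gas.pts C) = 0 := card_eq_zero.2 (filter_eq_empty_iff.2
      fun v hv h => h ((pts_inv a2 v).2 hv))
    refine (St.lagT (ξ := ξ) (O := Gas.pts C) ⟨hW, M, N, hb, le, Subset.rfl, by omega, c1,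
      I.ev_eq a2 ▸ c2⟩ K a3 H.hd.2 H.hd.1 top (.inr a4.symm) H.hN.1 ?_).trans (le_trans (by gcongr) H.lag)
    rw [lag, if_pos a5]
    exact (Nat.mul_le_mul_right _ H.hN.2).trans hW.hT.ge

end Crest.Agent.N337.Gl
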