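import Crest.Agent.N337.Gl.Mdl
import Crest.Agent.N337.E.Tube

/-!
# Row 337 (helper4): quenched Green bounds from tube data (`Tr.TB`)
-/

set_option autoImplicit false
set_option linter.unusedSectionVars false

namespace Crest.Agent.N337.Gl

open Finset Crest.MathPhysics.SpinModel Crest.Agent.N337.Free G1 I Rg Tr

variable {L n T : ℕ} [NeZero L] [NeZero T] {α κ : Type} [SemilatticeSup α] [Preorder κ]
  (S : Sys (Tor 3 L) α κ) (G : Eg) (P : Scales) (k k' th : ℕ → ℕ)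

/-- volume at the end of the tube. -/
def vT : ℕ := (2 * (2 ^ k G.mt / 4) + 1) ^ 3

/-- capacity constant of a tube from the level `lo` on. -/
noncomputable def cT (A lo nmax : ℕ) : ℝ := 16 * A + 2 * (10 ^ 9 *
  (P.K lo * (1 + (Nat.log 2 nmax : ℝ)) ^ 2 + nmax * Tb.tau S G P k k' lo G.mt ^ 2))

/-- price of the distance `d`. -/
noncomputable def gF (A lo d : ℕ) : ℝ := cT S G P k k' A lo (d / (4 * P.η lo)) * P.η lo / d

/-- the junk sets `U` of G1 are seen by the junk `J` of the routes. -/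
structure Lnk (U : ℕ → Finset (Tor 3 L)) (J : ℕ → Tor 3 L → Prop) : Prop where
  nu : Tb.Nu S G P k k' th
  top : U P.mt = ∅
  hJ : ∀ l < G.mt, ∀ u ∈ U (l + 1), ∃ u', tdist u u' ≤ th l ∧ J l u'

variable {S G P k k' th} {W : Wd T} {ex ey : Fin T → Tor 3 L × Fin n} {F : Lf} {t x0 j : ℕ}
  {p : Fin T → ℝ} {b : V L n T → ℝ} {E : Ev L n T} {Z : Finset (Tor 3 L)} {ξ : Fin T → Bool}
  {O C : Finset (V L n T)} {U : ℕ → Finset (Tor 3 L)} {J : ℕ → Tor 3 L → Prop} {x : Sd.V}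
  {lo d : ℕ} {v u : V L n T} {μ : ℝ}

theorem cT_nn (A lo nmax : ℕ) : 0 ≤ cT S G P k k' A lo nmax := by
  have := zero_le_one.trans (one_le_K P lo)
  unfold cT; positivity

theorem gF_nn (A lo d : ℕ) : 0 ≤ gF S G P k k' A lo d := by
  have := cT_nn (S := S) (G := G) (P := P) (k := k) (k' := k') A lo (d / (4 * P.η lo))
  unfold gF; positivity

theorem St.tube (h : St W ex ey F P t x0 j p b E Z ξ O C U) (K : Lnk S G P k k' th U J)
    (H : TB S G lo J x) (hlo : lo ≤ G.mt) (hd : 2 * (d + F.A) ≤ 2 ^ k lo) :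
    ∃ U', St W ex ey F P t x0 j p b E Z ξ O C U' ∧ Near P U' (tcast L x) (lo + 1) (2 ^ k lo) ∧
      ∀ m, CapH P U' (tcast L x) d F.A m (vT G k) (cT S G P k k' F.A lo m) := by
  obtain ⟨h1, N, z, c, s, r, ν, h2, h3, h4⟩ := Tb.tube K.nu K.top K.hJ H hlo hd
  have hc := fun m a b => Tb.cov_Us (X := tcast L x) (lo := lo) K.nu b (h.cov m a b)
  refine ⟨_, h.junk Tb.sub_Us hc, h1, fun m => ?_⟩
  have := capH_tube (nmax := m) h.nu.ok hc h.nu.hA h4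
  rwa [h2, h3, Nat.add_sub_cancel] at this

/-- **far pairs.** -/
theorem St.farT (h : St W ex ey F P t x0 j p b E Z ξ O C U) (K : Lnk S G P k k' th U J)
    (H : TB S G lo J x) (hlo : lo ≤ G.mt) (hd : 2 * (d + F.A) ≤ 2 ^ k lo) (hη : 4 * P.η lo ≤ d)
    (top : Tp W Z (vT G k) μ) (hx : tcast L x = u.2.1 ∨ tcast L x = v.2.1)
    (huv : d ≤ tdist u.2.1 v.2.1) :
    (WN.Gc ex ey p b O ξ v u - if v = u then 1 else 0) ≤
      Cg W.κ * (μ + gF S G P k k' F.A lo d + W.er L n) := by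
  obtain ⟨U', h', hN, hc⟩ := h.tube K H hlo hd
  exact h'.far (m1 := lo + 1) (by omega) (by rw [K.nu.mt]; omega) (hN.mono (by omega))
    (cT_nn _ _ _) (hc _) le_rfl top hx huv hη

/-- **long lags.** -/
theorem St.lagT (h : St W ex ey F P t x0 j p b E Z ξ O C U) (K : Lnk S G P k k' th U J)
    (H : TB S G 0 J x) (hd : 2 * (d + P.η 0 + F.A) ≤ 2 ^ k 0) (hη : 4 * P.η 0 ≤ d)
    (top : Tp W Z (vT G k) μ) (hx : tcast L x = u.2.1 ∨ tcast L x = v.2.1) {Nb : ℕ}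
    (hNb : 1 ≤ Nb) (hlag : Nb * (F.l + 2) * F.D ≤ G1.lag u.1 v.1) :
    (WN.Gc ex ey p b O ξ v u - if v = u then 1 else 0) ≤
      Cg W.κ * (μ + (cT S G P k k' F.A 0 1 / Nb + gF S G P k k' F.A 0 d) + W.er L n) := by
  obtain ⟨U', h', hN, hc⟩ := h.tube K H (Nat.zero_le _) hd
  exact h'.lag (hN.mono (by omega)) (cT_nn _ _ _) ((hc _).mono (by omega) le_rfl) le_rfl
    (cT_nn _ _ _) (hc 1) top hx hη hNb hlag

/-- **short lags.** -/
theorem St.shortT (h : St W ex ey F P t x0 j p b E Z ξ O C U) (K : Lnk S G P k k' th U J)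
    (H : TB S G 0 J x) (hd : 2 * (d + F.A) ≤ 2 ^ k 0) (top : Tp W Z (vT G k) μ)
    (hx : tcast L x = u.2.1 ∨ tcast L x = v.2.1) {M τ : ℕ} (hM : 1 ≤ M)
    (hMd : 2 * (M + τ) * ((j + 1) * (2 * F.A + 1)) ≤ d) (hτ : G1.lag u.1 v.1 ≤ τ * F.D)
    (A : Finset ℕ) (hA : A.Nonempty) {y : Tor 3 L} {r : ℕ} (hr : tdist y (tcast L x) + d ≤ r)
    (hA' : ∀ i ∈ A, ¬ Cl F r (vis Z (E.1 ∪ C)) y i ∧
      u.1.val ≤ i * F.D ∧ (i + 1) * F.D ≤ u.1.val + G1.lag u.1 v.1) :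
    (WN.Gc ex ey p b O ξ v u - if v = u then 1 else 0) ≤ Cg W.κ *
      (μ + (cT S G P k k' F.A 0 1 / A.card + cT S G P k k' F.A 0 M / M) + W.er L n) := by
  obtain ⟨U', h', hN, hc⟩ := h.tube K H (Nat.zero_le _) hd
  exact h'.short (hN.mono (by omega)) (cT_nn _ _ _) (hc M) (cT_nn _ _ _) (hc 1) hM le_rfl top hx
    hMd hτ A hA hr hA'

end Crest.Agent.N337.Gl
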